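import Vale.Agent.P251EJ78.ModP
import Vale.Agent.P251EJ13.RatMU

/-!
# P251EJ, block EvenB: `π_{2*} BP = ℤ_(p)[v_1, v_2, …]`
-/

open CategoryTheory MonoidalCategory Limits Pretriangulated

universe u

namespace Vale.Agent.P251EJ78

open Vale.Agent.P251.T Vale.Agent.P251EJ

variable (𝒯 : Type u) [Category.{0} 𝒯] [Preadditive 𝒯] [HasZeroObject 𝒯]
    [HasShift 𝒯 ℤ] [∀ n : ℤ, (shiftFunctor 𝒯 n).Additive] [Pretriangulated 𝒯] [IsTriangulated 𝒯]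
    [MonoidalCategory 𝒯] [SymmetricCategory 𝒯] [TensorTriangulated 𝒯] [MonoidalClosed 𝒯]
    [HasCoproducts.{0} 𝒯] [HasProducts.{0} 𝒯] [StableCat 𝒯]

/-- block EvenB -/
theorem evenB : EvenB 𝒯 := fun _ _ _ _ _ _ _ _ _ _ hb _ hS hD hA hΦ =>
  bij_of_ratMU hD hA hb hΦ (P251EJ13.ratMU hS hD)

end Vale.Agent.P251EJ78
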