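import Vale.Agent.P251EJ.Defs

/-!
# P251EJ, row OddB: the odd homotopy groups of the Brown-Peterson monoid vanish

The odd homotopy groups of finite even complexes are torsion groups (Serre's theorem and
connectivity of the unit), hence so are those of `MU`, of its localization and of the retract `B`;
those of `B` are also torsion free.
-/

open CategoryTheory MonoidalCategory MonObj Limits Pretriangulated

set_option linter.unusedSectionVars false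

universe u

noncomputable section

namespace Vale.Agent.P251EJ78

open Vale.Agent.P251 Vale.Agent.P251.S Vale.Agent.P251.T Vale.Agent.P251.M Vale.Agent.P251.F
  Vale.Agent.P251.I Vale.Agent.P257.H80 Vale.Agent.P093.N0 Vale.Agent.P221.H746
  Vale.Agent.P251EJ

variable {𝒯 : Type u} [Category.{0} 𝒯] [Preadditive 𝒯] [HasZeroObject 𝒯]
    [HasShift 𝒯 ℤ] [∀ n : ℤ, (shiftFunctor 𝒯 n).Additive] [Pretriangulated 𝒯] [IsTriangulated 𝒯]
    [MonoidalCategory 𝒯] [SymmetricCategory 𝒯] [TensorTriangulated 𝒯] [MonoidalClosed 𝒯]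
    [HasCoproducts.{0} 𝒯] [HasProducts.{0} 𝒯] [StableCat 𝒯]

/-- `π_n X` is a torsion group -/
def Tors (n : ℤ) (X : 𝒯) : Prop := ∀ f : (𝟙_ 𝒯)⟦n⟧ ⟶ X, ∃ m : ℤ, m ≠ 0 ∧ m • f = 0

theorem Tors.retract {n : ℤ} {X Y : 𝒯} (h : Tors n Y) (s : X ⟶ Y) (r : Y ⟶ X)
    (hs : s ≫ r = 𝟙 X) : Tors n X := by
  intro f
  obtain ⟨m, hm, h1⟩ := h (f ≫ s)
  refine ⟨m, hm, ?_⟩
  rw [← Category.comp_id f, ← hs, ← Category.assoc, ← Preadditive.zsmul_comp, h1, zero_comp]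

theorem Tors.shift {a : ℤ} {Y : 𝒯} (h : Tors a Y) (b c : ℤ) (hc : a + b = c) :
    Tors c (Y⟦b⟧) := by
  intro f
  have e : (𝟙_ 𝒯)⟦c⟧ ≅ (((𝟙_ 𝒯)⟦a⟧))⟦b⟧ := (shiftFunctorAdd' 𝒯 a b c hc).app (𝟙_ 𝒯)
  obtain ⟨g, hg⟩ := (shiftFunctor 𝒯 b).map_surjective (e.inv ≫ f)
  obtain ⟨m, hm, h1⟩ := h g
  refine ⟨m, hm, ?_⟩
  rw [← cancel_epi e.inv, Preadditive.comp_zsmul, ← hg, ← Functor.map_zsmul, h1,
    Functor.map_zero, comp_zero]

/-- the stems in nonzero degrees are torsion groups -/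
theorem tors_unit (hS : Serre 𝒯) (h0 : Conn (0 : ℤ) (𝟙_ 𝒯)) (n : ℤ) (hn : n ≠ 0) :
    Tors n (𝟙_ 𝒯) := by
  intro f
  rcases lt_or_gt_of_ne hn with h | h
  · exact ⟨1, one_ne_zero, by rw [h0 n h f, smul_zero]⟩
  · exact hS n h f

theorem tors_sph (hS : Serre 𝒯) (h0 : Conn (0 : ℤ) (𝟙_ 𝒯)) (n k : ℤ) (hn : n ≠ k) :
    Tors n ((𝟙_ 𝒯)⟦k⟧) :=
  (tors_unit hS h0 (n - k) (sub_ne_zero.2 hn)).shift k n (by ring)

theorem Tors.ext {n : ℤ} (Δ : Triangle 𝒯) (hΔ : Δ ∈ distTriang 𝒯) (h₁ : Tors n Δ.obj₁)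
    (h₃ : Tors n Δ.obj₃) : Tors n Δ.obj₂ := by
  intro f
  obtain ⟨m, hm, h1⟩ := h₃ (f ≫ Δ.mor₂)
  obtain ⟨g, hg⟩ := Triangle.coyoneda_exact₂ Δ hΔ (m • f) (by rw [Preadditive.zsmul_comp, h1])
  obtain ⟨m', hm', h2⟩ := h₁ g
  refine ⟨m' * m, mul_ne_zero hm' hm, ?_⟩
  rw [mul_smul, hg, ← Preadditive.zsmul_comp, h2, zero_comp]

/-- the odd homotopy groups of a finite even complex are torsion groups -/
theorem tors_evenCell (hS : Serre 𝒯) (h0 : Conn (0 : ℤ) (𝟙_ 𝒯)) {n : ℤ} (hn : Odd n) {d : ℤ}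
    {X : 𝒯} (hX : EvenCell 𝒯 d X) : Tors n X := by
  induction hX with
  | zero X hX => exact fun f => ⟨1, one_ne_zero, hX.eq_of_tgt _ _⟩
  | sphere k _ =>
    refine tors_sph hS h0 n (2 * k) ?_
    obtain ⟨j, rfl⟩ := hn
    omega
  | ext Δ hΔ _ _ ih₁ ih₃ => exact Tors.ext Δ hΔ ih₁ ih₃

theorem Tors.tel {n : ℤ} {F : ℕ ⥤ 𝒯} {L : 𝒯} {tt : ∀ j, F.obj j ⟶ L} (h : M.IsTel F L tt)
    (hF : ∀ j, Tors n (F.obj j)) : Tors n L := by
  intro f
  obtain ⟨j, w, rfl⟩ := h.exists_factor' (isCpt_sph n) f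
  obtain ⟨m, hm, h1⟩ := hF j w
  exact ⟨m, hm, by rw [← Preadditive.zsmul_comp, h1, zero_comp]⟩

/-- the odd homotopy groups of the tensor powers of `MU` are torsion groups -/
theorem tors_am (hS : Serre 𝒯) (D : MUData 𝒯) {n : ℤ} (hn : Odd n) (s : ℕ) :
    Tors n (Am D.R s) := by
  obtain ⟨F, tt, h, hF⟩ := D.cells s
  exact Tors.tel h fun j => tors_evenCell hS D.conn_unit hn (hF j)

theorem tors_mu (hS : Serre 𝒯) (D : MUData 𝒯) {n : ℤ} (hn : Odd n) : Tors n D.R :=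
  (tors_am hS D hn 1).retract (Am.v D.R (0 : Fin 1)) (amOne D.R) (v_amOne D.R)

theorem Tors.loc {p : ℕ} {n : ℤ} {X Y : 𝒯} {l : X ⟶ Y} (hl : IsLocPi p l) (h : Tors n X) :
    Tors n Y := by
  intro y
  obtain ⟨m, x, hm, hx⟩ := hl.num n y
  obtain ⟨m', hm', h1⟩ := h x
  refine ⟨m' * m, mul_ne_zero hm' (fun h0 => hm (h0 ▸ dvd_zero _)), ?_⟩
  rw [mul_smul, hx, ← Preadditive.zsmul_comp, h1, zero_comp]

/-- a `p`-local group without `p`-torsion is torsion free -/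
theorem zero_of_smul {p : ℕ} (hp : p.Prime) {A Y : 𝒯} (hY : LocO p Y)
    (htf : ∀ a : A ⟶ Y, (p : ℤ) • a = 0 → a = 0) (m : ℤ) (hm : m ≠ 0) (y : A ⟶ Y)
    (h : m • y = 0) : y = 0 := by
  induction hN : m.natAbs using Nat.strong_induction_on generalizing m y with
  | _ N ih =>
    by_cases hd : (p : ℤ) ∣ m
    · obtain ⟨c, rfl⟩ := hd
      have hc : c ≠ 0 := right_ne_zero_of_mul hm
      refine ih c.natAbs ?_ c hc y (htf _ (by rw [← mul_smul, h])) rfl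
      rw [← hN, Int.natAbs_mul, Int.natAbs_natCast]
      have h1 := hp.two_le
      have h2 : 0 < c.natAbs := Int.natAbs_pos.2 hc
      nlinarith
    · exact zero_of_smul_of_local hY hd y h

variable (𝒯) in
/-- row OddB -/
theorem oddB : OddB 𝒯 := by
  intro F e D p hp B _ _ b _ hS hD hA hb n hn f
  obtain ⟨Rp, _, _, l, _, hl, s, _, r, _, _, hsr, _⟩ := exists_retract hD hb
  have h1 : Tors n B := ((tors_mu hS D hn).loc (IsPLoc.isLocPi hl)).retract s r hsr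
  obtain ⟨m, hm, h2⟩ := h1 f
  obtain ⟨k, rfl⟩ := hn
  exact zero_of_smul hp.out hb.loc ((good_bp hD hA hb).oddTf k) m hm f h2

end Vale.Agent.P251EJ78
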