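import Vale.Agent.P251EJ.Defs

/-!
# P251EJ, block EvenB: from the rational statement to the integral statement
-/

open CategoryTheory MonoidalCategory MonObj Limits Pretriangulated

set_option linter.unusedSectionVars false

universe u

noncomputable section

namespace Vale.Agent.P251EJ78

open Vale.Agent.P251 Vale.Agent.P251.S Vale.Agent.P251.T Vale.Agent.P251.M Vale.Agent.P251.F
  Vale.Agent.P251.I Vale.Agent.P257.H80 Vale.Agent.P093.N0 Vale.Agent.P221.H746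
  Vale.Agent.P251EJ Vale.Agent.P221.H246 Vale.Agent.P221.T Vale.Agent.P221.T.H520
  Vale.Agent.P221X.EXI Vale.Agent.P221.H924 EvenSpheres

section alg

variable {p : ℕ} [hp : Fact p.Prime]

theorem dvd_of_redP (x : MvPolynomial ℕ ℤ) (h : redP p x = 0) :
    ∃ y, x = (p : MvPolynomial ℕ ℤ) * y := by
  have h5 : (MvPolynomial.C (p : ℤ) : MvPolynomial ℕ ℤ) ∣ x := by
    rw [MvPolynomial.C_dvd_iff_map_hom_eq_zero (Int.castRingHom (ZMod p)) (p : ℤ)]
    · exact h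
    · intro c'
      rw [eq_intCast, ZMod.intCast_zmod_eq_zero_iff_dvd]
  obtain ⟨y, hy⟩ := h5
  exact ⟨y, by rw [hy, map_natCast]⟩

theorem den_K0 (c : K0 p) : ∃ (m : ℕ) (x : MvPolynomial ℕ ℤ), ¬ p ∣ m ∧
    (m : K0 p) * c = MvPolynomial.map (Int.castRingHom (Z0 p)) x := by
  induction c using MvPolynomial.induction_on with
  | C z =>
    obtain ⟨m, a, hm, h⟩ := Z0.exists_mul z
    refine ⟨m, MvPolynomial.C a, hm, ?_⟩
    rw [MvPolynomial.map_C, ← map_natCast (MvPolynomial.C : Z0 p →+* K0 p), ← map_mul, h]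
    rfl
  | add f g hf hg =>
    obtain ⟨m, x, hm, h⟩ := hf
    obtain ⟨m', x', hm', h'⟩ := hg
    refine ⟨m * m', m' * x + m * x', fun hd => (hp.out.dvd_mul.1 hd).elim hm hm', ?_⟩
    rw [map_add, map_mul, map_mul, map_natCast, map_natCast, ← h, ← h']
    push_cast
    ring
  | mul_X f i hf =>
    obtain ⟨m, x, hm, h⟩ := hf
    refine ⟨m, x * MvPolynomial.X i, hm, ?_⟩
    rw [map_mul, MvPolynomial.map_X, ← h, _root_.mul_assoc]

variable {H : Type} [CommRing H] (Φ : MvPolynomial ℕ ℤ →+* H)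
  (κ : H →+* MvPolynomial ℕ (ZMod p)) (hκ : κ.comp Φ = redP p)
  (htf : ∀ y : H, (p : H) * y = 0 → y = 0)

include hκ htf

theorem div_step (x : MvPolynomial ℕ ℤ) (y : H) (h : (p : H) * y = Φ x) :
    ∃ x', x = (p : MvPolynomial ℕ ℤ) * x' ∧ y = Φ x' := by
  have h1 : redP p x = 0 := by
    rw [← hκ, RingHom.comp_apply, ← h, map_mul, map_natCast, natCast_zero p, zero_mul]
  obtain ⟨x', rfl⟩ := dvd_of_redP x h1
  refine ⟨x', rfl, sub_eq_zero.1 (htf _ ?_)⟩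
  rw [mul_sub, h, map_mul, map_natCast, sub_self]

theorem phi_inj (x : MvPolynomial ℕ ℤ) (h : Φ x = 0) : x = 0 := by
  have h1 : ∀ k : ℕ, ∃ y, x = (p : MvPolynomial ℕ ℤ) ^ k * y ∧ Φ y = 0 := by
    intro k
    induction k with
    | zero => exact ⟨x, by rw [pow_zero, _root_.one_mul], h⟩
    | succ k ih =>
      obtain ⟨y, h2, h3⟩ := ih
      obtain ⟨y', h4, h5⟩ := div_step Φ κ hκ htf y 0 (by rw [mul_zero, h3])
      exact ⟨y', by rw [h2, h4, pow_succ, _root_.mul_assoc], h5.symm⟩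
  ext d
  obtain ⟨y, h2, -⟩ := h1 (x.coeff d).natAbs
  have h3 : ((p : ℤ) ^ (x.coeff d).natAbs) ∣ x.coeff d := by
    refine ⟨y.coeff d, ?_⟩
    conv_lhs => rw [h2]
    rw [← map_natCast (MvPolynomial.C : ℤ →+* MvPolynomial ℕ ℤ), ← map_pow, MvPolynomial.coeff_C_mul]
  rw [MvPolynomial.coeff_zero]
  refine Int.eq_zero_of_dvd_of_natAbs_lt_natAbs h3 ?_
  rw [Int.natAbs_pow, Int.natAbs_natCast]
  exact Nat.lt_pow_self hp.out.one_lt

theorem phi_div (m : ℤ) (hm : m ≠ 0) (y : H) (x : MvPolynomial ℕ ℤ) (h : (m : H) * y = Φ x) :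
    ∃ (c : ℤ) (x' : MvPolynomial ℕ ℤ), ¬ (p : ℤ) ∣ c ∧ (c : H) * y = Φ x' := by
  induction hN : m.natAbs using Nat.strong_induction_on generalizing m x with
  | _ N ih =>
    by_cases hd : (p : ℤ) ∣ m
    · obtain ⟨c, rfl⟩ := hd
      have hc : c ≠ 0 := right_ne_zero_of_mul hm
      obtain ⟨x', -, h1⟩ := div_step Φ κ hκ htf x ((c : H) * y) (by
        rw [← h, Int.cast_mul, Int.cast_natCast, _root_.mul_assoc])
      refine ih c.natAbs ?_ c hc x' h1 rfl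
      rw [← hN, Int.natAbs_mul, Int.natAbs_natCast]
      have h1 := hp.out.two_le
      have h2 : 0 < c.natAbs := Int.natAbs_pos.2 hc
      nlinarith
    · exact ⟨m, x, hd, h⟩

/-- the algebraic core -/
theorem bij_alg (Ψ : K0 p →+* H)
    (hΨ : ∀ x, Ψ (MvPolynomial.map (Int.castRingHom (Z0 p)) x) = Φ x)
    (hrat : ∀ y : H, ∃ (m : ℤ) (x : MvPolynomial ℕ ℤ), m ≠ 0 ∧ (m : H) * y = Φ x) :
    Function.Bijective Ψ := by
  refine ⟨(injective_iff_map_eq_zero Ψ).2 fun c hc => ?_, fun y => ?_⟩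
  · obtain ⟨m, x, hm, h⟩ := den_K0 c
    have h1 : x = 0 := phi_inj Φ κ hκ htf x (by rw [← hΨ, ← h, map_mul, hc, mul_zero])
    rw [h1, map_zero] at h
    have h2 : IsUnit (m : K0 p) := by
      rw [← map_natCast (MvPolynomial.C : Z0 p →+* K0 p)]
      exact (ploc_Z0 p m hm).map _
    exact (h2.mul_right_eq_zero).1 h
  · obtain ⟨m, x, hm, h⟩ := hrat y
    obtain ⟨c, x', hc, h1⟩ := phi_div Φ κ hκ htf m hm y x h
    obtain ⟨u, hu⟩ := (Z0.isUnit (ploc_Z0 p) ⟨c, hc⟩).exists_left_inv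
    have h2 : (MvPolynomial.C u : K0 p) * (c : K0 p) = 1 := by
      rw [← map_intCast (MvPolynomial.C : Z0 p →+* K0 p), ← map_mul]
      exact (congrArg MvPolynomial.C hu).trans (map_one _)
    refine ⟨MvPolynomial.C u * MvPolynomial.map (Int.castRingHom (Z0 p)) x', ?_⟩
    rw [map_mul, hΨ, ← h1, ← _root_.mul_assoc, ← map_intCast Ψ, ← map_mul, h2, map_one,
      _root_.one_mul]

end alg

variable {𝒯 : Type u} [Category.{0} 𝒯] [Preadditive 𝒯] [HasZeroObject 𝒯]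
    [HasShift 𝒯 ℤ] [∀ n : ℤ, (shiftFunctor 𝒯 n).Additive] [Pretriangulated 𝒯] [IsTriangulated 𝒯]
    [MonoidalCategory 𝒯] [SymmetricCategory 𝒯] [TensorTriangulated 𝒯] [MonoidalClosed 𝒯]
    [HasCoproducts.{0} 𝒯] [HasProducts.{0} 𝒯] [StableCat 𝒯]

variable {D : MUData 𝒯} {p : ℕ} [hp : Fact p.Prime]

/-- denominators in the homotopy ring of a localization -/
theorem num_ring {K : 𝒯} [MonObj K] [IsCommMonObj K] {l : D.R ⟶ K} [IsMonHom l] (hl : IsLocPi p l)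
    (y : HRing (stdEven 𝒯) K) : ∃ (m : ℤ) (x : HRing (stdEven 𝒯) D.R), m ≠ 0 ∧
      (m : HRing (stdEven 𝒯) K) * y = HRing.map (E := stdEven 𝒯) l x := by
  induction y using DirectSum.induction_on with
  | zero => exact ⟨1, 0, one_ne_zero, by rw [mul_zero, map_zero]⟩
  | of w a =>
    obtain ⟨m, x, hm, hx⟩ := hl.num' ⟨2 * w, ⟨stdSph w⟩⟩ a
    refine ⟨m, HRing.of (stdEven 𝒯) D.R w x, fun h0 => hm (h0 ▸ dvd_zero _), ?_⟩
    rw [HRing.map_of, ← hx, of_zsmul']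
  | add x y hx hy =>
    obtain ⟨m, a, hm, h⟩ := hx
    obtain ⟨m', a', hm', h'⟩ := hy
    refine ⟨m * m', (m' : HRing (stdEven 𝒯) D.R) * a + (m : HRing (stdEven 𝒯) D.R) * a',
      mul_ne_zero hm hm', ?_⟩
    rw [map_add, map_mul, map_mul, map_intCast, map_intCast, ← h, ← h']
    push_cast
    ring

variable {F : SpaceFunctor 𝒯} {e : F.S.obj CCF ≅ (stdEven 𝒯).L}
  {B : 𝒯} [MonObj B] [IsCommMonObj B] {b : D.R ⟶ B} [IsMonHom b]

/-- the integral statement from the rational statement for `B` -/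
theorem bij_of_ratB (hD : MUUniv e D) (hA : MUAll D) (hb : IsBPMon p b)
    {Φ : MvPolynomial ℕ ℤ →+* HRing (stdEven 𝒯) B} (hΦ : lawOf b = (haz p).map Φ)
    (hrat : ∀ y : HRing (stdEven 𝒯) B, ∃ (m : ℤ) (x : MvPolynomial ℕ ℤ), m ≠ 0 ∧
      (m : HRing (stdEven 𝒯) B) * y = Φ x) : Function.Bijective (PhiT (ell hb) Φ) := by
  obtain ⟨κ, -, -, hκ⟩ := exists_kappa hD hA hb
  have h0 : κ.comp Φ = redP p := by
    apply haz_map_injective p (pLoc_of_char (natCast_zero p))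
    rw [← Law.map_map, ← hΦ, hκ]
    rfl
  refine bij_alg Φ κ h0 (tf hD hA hb) _ (fun x => ?_) hrat
  have h1 : (PhiT (ell hb) Φ).comp (MvPolynomial.map (Int.castRingHom (Z0 p))) = Φ := by
    apply MvPolynomial.ringHom_ext
    · intro r
      rw [eq_intCast MvPolynomial.C r, map_intCast, map_intCast]
    · intro i
      rw [RingHom.comp_apply, MvPolynomial.map_X, PhiT_X]
  exact RingHom.congr_fun h1 x

/-- the rational statement for `B` from the rational statement for `MU` -/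
theorem ratB_of_ratMU (hD : MUUniv e D) (hb : IsBPMon p b)
    {Φ : MvPolynomial ℕ ℤ →+* HRing (stdEven 𝒯) B} (hΦ : lawOf b = (haz p).map Φ)
    (hrat : ∀ y : HRing (stdEven 𝒯) D.R, ∃ (m : ℤ) (z : Laz), m ≠ 0 ∧
      (m : HRing (stdEven 𝒯) D.R) * y = Laz.lift (lawOf (𝟙 D.R)) z)
    (y : HRing (stdEven 𝒯) B) : ∃ (m : ℤ) (x : MvPolynomial ℕ ℤ), m ≠ 0 ∧
      (m : HRing (stdEven 𝒯) B) * y = Φ x := by
  obtain ⟨Rp, _, _, l, _, hl, f, _, g, _, hlg, hfg, -⟩ := exists_retract hD hb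
  obtain ⟨m, x, hm, hx⟩ := num_ring (IsPLoc.isLocPi hl) (HRing.map f y)
  obtain ⟨m', z, hm', hz⟩ := hrat x
  refine ⟨m' * m, Laz.lift (haz p) z, mul_ne_zero hm' hm, ?_⟩
  have h2 : y = HRing.map g (HRing.map f y) := by
    rw [← RingHom.comp_apply, ← HRing.map_comp, HRing_map_congr' hfg, HRing.map_id,
      RingHom.id_apply]
  have h3 : (m : HRing (stdEven 𝒯) B) * y = HRing.map (E := stdEven 𝒯) b x := by
    rw [h2, ← map_intCast (HRing.map (E := stdEven 𝒯) g), ← map_mul, hx, ← RingHom.comp_apply,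
      ← HRing.map_comp, HRing_map_congr' hlg]
  rw [Int.cast_mul, _root_.mul_assoc, h3, ← map_intCast (HRing.map (E := stdEven 𝒯) b), ← map_mul,
    hz, Laz.map_lift, ← lawOf_comp, lawOf_congr (Category.id_comp b), hΦ, Laz.map_lift]

/-- block EvenB from the rational statement for `MU` -/
theorem bij_of_ratMU (hD : MUUniv e D) (hA : MUAll D) (hb : IsBPMon p b)
    {Φ : MvPolynomial ℕ ℤ →+* HRing (stdEven 𝒯) B} (hΦ : lawOf b = (haz p).map Φ)
    (hrat : ∀ y : HRing (stdEven 𝒯) D.R, ∃ (m : ℤ) (z : Laz), m ≠ 0 ∧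
      (m : HRing (stdEven 𝒯) D.R) * y = Laz.lift (lawOf (𝟙 D.R)) z) :
    Function.Bijective (PhiT (ell hb) Φ) :=
  bij_of_ratB hD hA hb hΦ (ratB_of_ratMU hD hb hΦ hrat)

end Vale.Agent.P251EJ78
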